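import Vale.Agent.P253Z.T2.An
import Vale.Agent.P253Z.Core
import Vale.Agent.P253Z.BER

/-!
# P253Z, T2, block TAU: the weighted Bergman space is finite dimensional, and its elements are
bounded by their norms off a hypersurface
-/

open scoped Manifold ContDiff Bundle ENNReal Topology ComplexConjugate ComplexOrder
open Bundle IsManifold MeasureTheory Set Metric Filter Vale.Agent.P253.Mfd
open Vale.Agent.P272.K (Cm dz dzb cHess jacM Chart)

noncomputable section

namespace Vale.Agent.P253Z.T2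

open VS (ev Jac)

variable {n : ℕ} {M : Type} [MetricSpace M] [ChartedSpace (Cm n) M]
  [RiemannianBundle (fun x : M => TangentSpace 𝓘(ℝ, Cm n) x)]
  [MeasurableSpace M] {μ : Measure M}

namespace Tf

omit [RiemannianBundle (fun x : M => TangentSpace 𝓘(ℝ, Cm n) x)] [MeasurableSpace M] in
theorem smSec {k : ℤ} {s : M → ℂ} (h : IsSec n k s) : SmSec n k s := fun e he z hz =>
  (h e he z hz).contDiffAt.restrict_scalars ℝ

/-- the weighted Bergman space -/
theorem exists_sub (v : B3 n μ) (k : ℤ) {ψ : M → ℝ} (hψ : Continuous ψ) :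
    ∃ V : Submodule ℂ (M → ℂ), ∀ s, s ∈ V ↔ IsSec n k s ∧ L2 n μ k ψ s < ⊤ := by
  refine ⟨{ carrier := {s | IsSec n k s ∧ L2 n μ k ψ s < ⊤}
            zero_mem' := ⟨fun e _ z _ => ?_, by simp [L2, nrm]⟩
            add_mem' := ?_
            smul_mem' := ?_ }, fun s => Iff.rfl⟩
  · rintro s t ⟨hs, hs'⟩ ⟨ht, ht'⟩
    refine ⟨fun e he z hz => ?_, (v.add k ψ s t hψ (smSec hs) (smSec ht)).trans_lt ?_⟩
    · have : co k (s + t) e = co k s e + co k t e := (coL k e).map_add s t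
      rw [this]; exact (hs e he z hz).add (ht e he z hz)
    · exact ENNReal.add_lt_top.2 ⟨ENNReal.mul_lt_top (by simp) hs', ENNReal.mul_lt_top (by simp) ht'⟩
  · have : co k (0 : M → ℂ) e = fun _ => 0 := (coL k e).map_zero
    rw [this]; exact analyticAt_const
  · rintro c s ⟨hs, hs'⟩
    refine ⟨fun e he z hz => ?_, ?_⟩
    · have : co k (c • s) e = c • co k s e := (coL k e).map_smul c s
      rw [this]; exact (hs e he z hz).const_smul
    · have : L2 n μ k ψ (c • s) = ENNReal.ofReal (‖c‖ ^ 2) * L2 n μ k ψ s := by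
        rw [L2, L2, ← lintegral_const_mul' _ _ ENNReal.ofReal_ne_top]
        refine lintegral_congr fun x => ?_
        rw [← ENNReal.ofReal_mul (sq_nonneg _)]
        congr 1
        simp only [nrm, Pi.smul_apply, smul_eq_mul, norm_mul]
        ring
      rw [this]
      exact ENNReal.mul_lt_top ENNReal.ofReal_lt_top hs'

/-- finitely many elements bound all linear forms -/
theorem berg [BorelSpace M] (a : B1a n M) (b : B1b n M) (v : B3 n μ) {k : ℤ} {ψ : M → ℝ}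
    (hψ : Continuous ψ) {V : Submodule ℂ (M → ℂ)}
    (hV : ∀ s, s ∈ V ↔ IsSec n k s ∧ L2 n μ k ψ s < ⊤) [Module.Finite ℂ V] :
    ∃ β : Fin (Module.finrank ℂ V) → V, ∀ s ∈ V, ∀ ℓ : (M → ℂ) →ₗ[ℂ] ℂ,
      ‖ℓ s‖ ^ 2 ≤ (∑ i, ‖ℓ (β i)‖ ^ 2) * (L2 n μ k ψ s).toReal := by
  set ρ : M → ℝ := fun x => vd (chartAt (Cm n) x) (chartAt (Cm n) x x) ^ (-k) * Real.exp (-ψ x)
    with hρ
  have ρ0 : ∀ x, 0 < ρ x := fun x =>
    mul_pos (zpow_pos (b.vd_pos _ (a.chart x) _ (mem_chart_target _ x)) _) (Real.exp_pos _)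
  set N : (M → ℂ) → M → ℝ := fun s x => nrm n k s x * Real.exp (-ψ x) with hN
  have e : ∀ s x, N s x = ‖s x‖ ^ 2 * ρ x := fun _ _ => mul_assoc _ _ _
  have n0 : ∀ s x, 0 ≤ N s x := fun s x => by
    rw [e]; exact mul_nonneg (sq_nonneg _) (ρ0 x).le
  have nc : ∀ s : V, Continuous (N s.1) := fun s =>
    (b.nrm_cont _ _ (smSec ((hV s).1 s.2).1)).mul (Real.continuous_exp.comp hψ.neg)
  have ni : ∀ s : V, Integrable (N s.1) μ := fun s =>
    ⟨(nc s).aestronglyMeasurable,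
      (hasFiniteIntegral_iff_ofReal (Eventually.of_forall (n0 _))).2 ((hV s).1 s.2).2⟩
  have ni' : ∀ s : V, Integrable (fun x => ‖s.1 x‖ ^ 2 * ρ x) μ := fun s =>
    (ni s).congr (Eventually.of_forall (e _))
  have hi : ∀ s t : V, Integrable (fun x => conj (s.1 x) * t.1 x * ρ x) μ := fun s t => by
    simp only [Ber.polar]
    exact (((ni' (s + t)).ofReal.sub (ni' (s + (-1 : ℂ) • t)).ofReal).add
      (((ni' (s + (-Complex.I) • t)).ofReal.sub (ni' (s + Complex.I • t)).ofReal).const_mul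
        Complex.I)).div_const 4
  have hs : ∀ s : V, ∫ x, conj (s.1 x) * s.1 x * ρ x ∂μ = ((∫ x, N s.1 x ∂μ : ℝ) : ℂ) :=
    fun s => by
    rw [← integral_complex_ofReal]
    refine integral_congr_ae (Eventually.of_forall fun x => ?_)
    simp only [e, Complex.conj_mul']
    push_cast
    rfl
  let c : InnerProductSpace.Core ℂ V :=
    { inner := fun s t => ∫ x, conj (s.1 x) * t.1 x * ρ x ∂μ
      conj_inner_symm := fun s t => by
        rw [← integral_conj]
        refine integral_congr_ae (Eventually.of_forall fun x => ?_)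
        simp only [map_mul, Complex.conj_conj, Complex.conj_ofReal]
        ring
      re_inner_nonneg := fun s => by
        rw [hs]
        exact integral_nonneg (n0 _)
      add_left := fun s t u => by
        rw [← integral_add (hi s u) (hi t u)]
        refine integral_congr_ae (Eventually.of_forall fun x => ?_)
        simp only [Submodule.coe_add, Pi.add_apply, map_add]
        ring
      smul_left := fun s t r => by
        rw [← integral_const_mul]
        refine integral_congr_ae (Eventually.of_forall fun x => ?_)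
        simp only [Submodule.coe_smul, Pi.smul_apply, smul_eq_mul, map_mul]
        ring
      definite := fun s h => by
        rw [hs, Complex.ofReal_eq_zero, integral_eq_zero_iff_of_nonneg (n0 _) (ni s)] at h
        ext x
        by_contra hx
        have h1 : IsOpen {x | N s.1 x ≠ 0} := isOpen_ne_fun (nc s) continuous_const
        refine (v.pos _ h1 ⟨x, ?_⟩).ne' h
        change N s.1 x ≠ 0
        rw [e]
        exact (mul_pos (pow_pos (norm_pos_iff.2 hx) 2) (ρ0 x)).ne' }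
  obtain ⟨β, -, h2⟩ := Ber.exists_onb c
  refine ⟨β, fun s hs1 ℓ => ?_⟩
  have h4 := h2 ⟨s, hs1⟩ (ℓ.comp V.subtype)
  have h5 : (c.inner ⟨s, hs1⟩ ⟨s, hs1⟩).re = (L2 n μ k ψ s).toReal := by
    change (∫ x, _ ∂μ : ℂ).re = _
    rw [hs, Complex.ofReal_re, integral_eq_lintegral_of_nonneg_ae (Eventually.of_forall (n0 _))
      (nc _).aestronglyMeasurable]
    rfl
  rwa [h5] at h4

theorem pow_tame (a : B1a n M) {p : M} (F : Fr n μ p) {m : ℕ} {s : M → ℂ} (hs : s ∈ F.Tame m)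
    (j : ℕ) : s ^ j ∈ F.Tame (j * m) := by
  induction j with
  | zero => simpa using one_tame F
  | succ j ih =>
    rw [pow_succ, Nat.succ_mul]
    exact mul_tame a F ih hs

theorem zp {J : ℂ} (hJ : J ≠ 0) {m j l : ℕ} (h : l + 1 = m * j) :
    J ^ (-(l : ℤ)) = J * (J ^ (-(m : ℤ))) ^ j := by
  have h1 : (-(l : ℤ)) = 1 + -(m : ℤ) * j := by
    have : (l : ℤ) + 1 = m * j := by exact_mod_cast h
    linarith
  rw [h1, zpow_add₀ hJ, zpow_one, zpow_mul, zpow_natCast]

end Tf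

open Tf in
/-- the finite dimensional half of `TAU` -/
theorem tauF [IsManifold 𝓘(ℂ, Cm n) 1 M] [BorelSpace M] (A : All n μ) (h1 : PCX n M)
    (h2 : LSE n M) (h4 : HT n μ) (h6 : RTB n μ) {m : ℕ} {s₀ : M → ℂ} {s : Fin n → M → ℂ}
    {w : M → ℝ} (hm : 1 ≤ m) (h₀ : InH n μ m s₀) (hs : ∀ i, InH n μ m (s i)) (hs₀ : s₀ ≠ 0)
    (hw : Wr m s₀ s w) :
    ∃ V : Submodule ℂ (M → ℂ), (∀ h, h ∈ V ↔ IsSec n (-((n + 4) * m - 1 : ℕ)) h ∧
      L2 n μ (-((n + 4) * m - 1 : ℕ))
        (fun x => Real.log (1 + w x) + (n + 2) * kap m s₀ s x) h < ⊤) ∧ Module.Finite ℂ V ∧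
      ∃ d : MvPolynomial (Fin n) ℂ, d ≠ 0 ∧ ∀ ζ, MvPolynomial.eval ζ d ≠ 0 → ∃ ε C : ℝ, 0 < ε ∧
        0 ≤ C ∧ ∀ e : Chart n M, PC s₀ s e → ∀ z ∈ e.target, z ∈ ball ζ ε → ∀ h ∈ V,
          ‖co (-((n + 4) * m - 1 : ℕ)) h e z‖ ^ 2 ≤ C * ‖co (-m) s₀ e z‖ ^ (2 * (n + 4)) *
            (L2 n μ (-((n + 4) * m - 1 : ℕ))
              (fun x => Real.log (1 + w x) + (n + 2) * kap m s₀ s x) h).toReal := by
  have hψ : Continuous fun x => Real.log (1 + w x) + (n + 2) * kap m s₀ s x :=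
    ((continuous_const.add (A.a.sm_cont _ hw.sm)).log fun x => by
      have := hw.nn x
      change 1 + w x ≠ 0
      linarith).add (continuous_const.mul
        (A.a.sm_cont _ (h2 m s₀ s h₀.1 fun i => (hs i).1).1))
  obtain ⟨V, hV⟩ := exists_sub A.v (-((n + 4) * m - 1 : ℕ)) hψ
  obtain ⟨p, -⟩ := Function.ne_iff.1 hs₀
  obtain ⟨F, hJ, hF⟩ := h4 p m s₀ s w hm h₀ hs hs₀ hw
  have t₀ := tame_of_inH F hm h₀
  have hfin : Module.Finite ℂ V := by
    obtain ⟨C, hC⟩ := dim_tame A.ord A.jet F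
    have := (hC ((n + 4) * m - 1 + m) (by omega)).1
    let T : V →ₗ[ℂ] F.Tame ((n + 4) * m - 1 + m) :=
      { toFun := fun h => ⟨h.1 * s₀, hF _ ((hV _).1 h.2).1 ((hV _).1 h.2).2⟩
        map_add' := fun x y => Subtype.ext (add_mul _ _ _)
        map_smul' := fun c x => Subtype.ext (smul_mul_assoc _ _ _) }
    refine Module.Finite.of_injective T ((injective_iff_map_eq_zero T).2 fun h hh => ?_)
    by_contra h0
    exact VS.mul_ne A.a ((hV _).1 h.2).1 h₀.1 (fun h' => h0 (Subtype.ext h')) hs₀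
      (congrArg Subtype.val hh)
  refine ⟨V, hV, hfin, ?_⟩
  obtain ⟨β, hβ⟩ := berg A.a A.b A.v hψ hV
  have k1 : 1 ≤ (n + 4) * m := Nat.mul_pos (by omega) hm
  have k2 : 1 ≤ m * (2 * n + 1) := Nat.mul_pos hm (by omega)
  have hb : Jac s₀ s * s₀ * s₀ ^ (n + 4) ∈
      F.Tame ((n + 4) * m - 1 + m + (2 * n + 1) * m) := by
    have := mul_tame A.a F hJ (pow_tame A.a F t₀ (n + 4))
    rwa [show m * (2 * n + 1) - 1 + m + (n + 4) * m = (n + 4) * m - 1 + m + (2 * n + 1) * m by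
      rw [mul_comm (2 * n + 1) m]; omega] at this
  choose d hd H using fun i => h6 p F m s₀ s hm t₀ (fun i => tame_of_inH F hm (hs i)) _
    ((β i).1 * s₀ * s₀ ^ (2 * n + 1)) (mul_tame A.a F
      (hF _ ((hV _).1 (β i).2).1 ((hV _).1 (β i).2).2) (pow_tame A.a F t₀ (2 * n + 1))) _ hb
  refine ⟨∏ i, d i, Finset.prod_ne_zero_iff.2 fun i _ => hd i, fun ζ hζ => ?_⟩
  rw [map_prod, Finset.prod_ne_zero_iff] at hζ
  choose ε C hε hC using fun i => H i ζ (hζ i (Finset.mem_univ i))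
  have hev : ∀ᶠ t in 𝓝[>] (0 : ℝ), ∀ i, t ≤ ε i :=
    eventually_all.2 fun i => mem_nhdsWithin_of_mem_nhds (Iic_mem_nhds (hε i))
  obtain ⟨t, ht, ht0⟩ := (hev.and self_mem_nhdsWithin).exists
  refine ⟨t, ∑ i, C i ^ 2, ht0, by positivity, fun e he z hz hzζ h hh => ?_⟩
  refine (hβ h hh ((LinearMap.proj z).comp (coL _ e))).trans
    (mul_le_mul_of_nonneg_right ?_ ENNReal.toReal_nonneg)
  rw [Finset.sum_mul]
  refine Finset.sum_le_sum fun i _ => ?_
  obtain ⟨e1, e2, -⟩ := (h1 m s₀ s hm h₀.1 fun i => (hs i).1).2 e he z hz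
  obtain ⟨e3, e4⟩ := he.2 _ (e.map_target hz)
  have e5 : Jac s₀ s (e.symm z) ≠ 0 := (VS.co_ne A.a he.1 hz).1 (e1 ▸ pow_ne_zero _ e2)
  have e6 := hC i (e.symm z) e3 (by simp [e3, e5])
    (by rw [← e4, e.right_inv hz]; exact ball_subset_ball (ht i) hzζ)
  have hJ0 := VS.jd_ne A.a he.1 hz
  have e7 : co (-((n + 4) * m - 1 : ℕ)) (β i).1 e z =
      ((β i).1 * s₀ * s₀ ^ (2 * n + 1)) (e.symm z) / (Jac s₀ s * s₀ * s₀ ^ (n + 4)) (e.symm z) *
        co (-m) s₀ e z ^ (n + 4) := by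
    simp only [co] at e1 e2 ⊢
    rw [zp hJ0 (m := m) (j := 2 * n + 1) (by omega)] at e1
    rw [zp hJ0 (m := m) (j := n + 4) (by rw [mul_comm m]; omega)]
    set J := (jacM e (chartAt (Cm n) (e.symm z)) (e.symm z)).det
    have hu : J ^ (-(m : ℤ)) ≠ 0 := zpow_ne_zero _ hJ0
    set u := J ^ (-(m : ℤ))
    have e8 : J * Jac s₀ s (e.symm z) = s₀ (e.symm z) ^ (2 * n + 1) := by
      refine mul_left_cancel₀ (pow_ne_zero (2 * n + 1) hu) ?_
      rw [← mul_pow, ← e1]
      ring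
    simp only [Pi.mul_apply, Pi.pow_apply]
    rw [← e8, mul_pow u]
    field_simp
  change ‖co (-((n + 4) * m - 1 : ℕ)) (β i).1 e z‖ ^ 2 ≤ _
  rw [e7, norm_mul, mul_pow, norm_pow, ← pow_mul, mul_comm (n + 4) 2]
  exact mul_le_mul_of_nonneg_right (pow_le_pow_left₀ (norm_nonneg _) e6 2) (by positivity)

end Vale.Agent.P253Z.T2
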